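import Mathlib.Analysis.SpecialFunctions.Trigonometric.Bounds

/-!
# P167, general `q`, block Q-LAM (LG): the weights of the strands which turn

Closed strands have the weight `sin (2θ - Kθ/2) / sin 2θ`, the other strands `sin (θ + Kθ/2) / sin θ`,
`K` the turning of the boundary between the feet. They are positive for `-1 ≤ K ≤ 3`.
-/

namespace Vale.Agent.P167.H601.LG

open Real

variable {θ : ℝ}

theorem sin_pos' (h0 : 0 < θ) (h1 : θ ≤ π / 3) : 0 < sin θ :=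
  sin_pos_of_pos_of_lt_pi h0 (by have := pi_pos; linarith)

theorem sin2_pos (h0 : 0 < θ) (h1 : θ ≤ π / 3) : 0 < sin (2 * θ) :=
  sin_pos_of_pos_of_lt_pi (by linarith) (by have := pi_pos; linarith)

theorem cl_pos (h0 : 0 < θ) (h1 : θ ≤ π / 3) {K : ℤ} (hK0 : -1 ≤ K) (hK1 : K ≤ 3) :
    0 < sin (2 * θ - θ / 2 * K) := by
  have e0 : (-1 : ℝ) ≤ K := by exact_mod_cast hK0
  have e1 : (K : ℝ) ≤ 3 := by exact_mod_cast hK1
  have := pi_pos
  refine sin_pos_of_pos_of_lt_pi ?_ ?_ <;> nlinarith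

theorem ot_pos (h0 : 0 < θ) (h1 : θ ≤ π / 3) {K : ℤ} (hK0 : -1 ≤ K) (hK1 : K ≤ 3) :
    0 < sin (θ + θ / 2 * K) := by
  have e0 : (-1 : ℝ) ≤ K := by exact_mod_cast hK0
  have e1 : (K : ℝ) ≤ 3 := by exact_mod_cast hK1
  have := pi_pos
  refine sin_pos_of_pos_of_lt_pi ?_ ?_ <;> nlinarith

/-- **Lower bounds for the weights.** -/
theorem exists_low (h0 : 0 < θ) (h1 : θ ≤ π / 3) : ∃ c : ℝ, 0 < c ∧ c ≤ 1 ∧ ∀ K : ℤ, -1 ≤ K →
    K ≤ 3 → c ≤ sin (2 * θ - θ / 2 * K) / sin (2 * θ) ∧ c ≤ sin (θ + θ / 2 * K) / sin θ := by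
  have hs1 := sin_pos' h0 h1
  have hs2 := sin2_pos h0 h1
  obtain ⟨K, hK, hmin⟩ := (Finset.Icc (-1 : ℤ) 3).exists_min_image
    (fun K : ℤ => min (sin (2 * θ - θ / 2 * K) / sin (2 * θ)) (sin (θ + θ / 2 * K) / sin θ))
    ⟨0, by simp⟩
  rw [Finset.mem_Icc] at hK
  refine ⟨min (sin (2 * θ - θ / 2 * K) / sin (2 * θ)) (sin (θ + θ / 2 * K) / sin θ),
    lt_min (div_pos (cl_pos h0 h1 hK.1 hK.2) hs2) (div_pos (ot_pos h0 h1 hK.1 hK.2) hs1), ?_, ?_⟩
  · have h := hmin 0 (by simp)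
    refine (h.trans (min_le_left _ _)).trans ?_
    rw [Int.cast_zero, mul_zero, sub_zero, div_self hs2.ne']
  · intro L hL0 hL1
    have h := hmin L (Finset.mem_Icc.2 ⟨hL0, hL1⟩)
    exact ⟨h.trans (min_le_left _ _), h.trans (min_le_right _ _)⟩

/-- Upper bounds for the weights. -/
theorem abs_div_le (h : 0 < sin θ) (x : ℝ) : |sin x / sin θ| ≤ 1 / sin θ := by
  rw [abs_div, abs_of_pos h]
  exact div_le_div_of_nonneg_right (abs_sin_le_one _) h.le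

theorem abs_div_le' (h : 0 < sin θ) (x : ℝ) : |cos x / sin θ| ≤ 1 / sin θ := by
  rw [abs_div, abs_of_pos h]
  exact div_le_div_of_nonneg_right (abs_cos_le_one _) h.le

end Vale.Agent.P167.H601.LG
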