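import Vale.Agent.P167.H601.LG.Str
import Vale.Agent.P167.H601.LG.Trig
import Vale.Agent.P167.H718.Par4

/-!
# P167, general `q`, block Q-LAM (LG): the weights of the parity image

`wJ`: weight of a piece of the image functional without charges.
-/

namespace Vale.Agent.P167.H601.LG

open Finset
open Vale.Agent.P167.E6 (IsPolygon Encloses dir face)
open Vale.Agent.P167.BR
open Vale.Agent.P167.QX (lo hi lo_xy hi_xy exists_xy wB)
open Vale.Agent.P167.H718 (IsXY IsCl rc)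

variable {N : ℕ} {q : ZMod N → ℤ × ℤ} {D : Finset (ℤ × ℤ)} {ω : Cfg} {A : Finset Ed} {τ : ℕ → ℤ}
  {n k : ℕ} {θ β : ℝ}

/-- The weight of a piece of the image functional without charges. -/
noncomputable def wJ (θ β : ℝ) (q : ZMod N → ℤ × ℤ) (D : Finset (ℤ × ℤ)) (k : ℕ) (τ : ℕ → ℤ)
    (A : Finset Ed) : ℝ :=
  wB θ β q D k A (rc θ β τ k (hi q A) - rc θ β τ k (lo q A))

theorem be_notMem_lp (hq : IsPolygon q) (hD : Encloses q D) (hA : A ∈ pcs ω D) (hl : IsLp D A)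
    (z : ZMod N) : be q z ∉ A := by
  intro hz
  rcases be_bd hq hD z with ⟨_, h2⟩ | ⟨_, h2⟩
  · exact h2 (hl.tl hA hz)
  · exact h2 (hl _ hz)

theorem wJ_lp (hq : IsPolygon q) (hD : Encloses q D) (hA : A ∈ pcs ω D) (hl : IsLp D A)
    (hc : Real.cos θ ≠ 0) : wJ θ β q D k τ A = 1 := by
  have h1 : {z | z < N ∧ be q (z : ZMod N) ∈ A} = ∅ := by
    ext z
    simp only [Set.mem_ofPred_eq, Set.mem_empty_iff_false, iff_false, not_and]
    exact fun _ => be_notMem_lp hq hD hA hl _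
  have h2 : lo q A = 0 := by
    unfold lo
    rw [h1, Nat.sInf_empty]
  have h3 : hi q A = 0 := by
    unfold hi
    rw [h1]
    simp
  unfold wJ wB
  rw [if_pos hl, h2, h3, sub_self, add_zero, div_self hc]

/-- The turning of a strand. -/
noncomputable def Kt (q : ZMod N → ℤ × ℤ) (τ : ℕ → ℤ) (A : Finset Ed) : ℤ := τ (hi q A) - τ (lo q A)

theorem rc_same (h : lo q A ≤ hi q A) (hF : ¬ (lo q A < k ∧ k ≤ hi q A)) :
    rc θ β τ k (hi q A) - rc θ β τ k (lo q A) = - (θ / 2 * Kt q τ A) := by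
  unfold rc Kt
  push_cast
  by_cases h1 : hi q A < k
  · rw [if_pos h1, if_pos (by omega)]
    ring
  · rw [if_neg h1, if_neg (by omega)]
    ring

theorem rc_fw (hF : lo q A < k ∧ k ≤ hi q A) :
    rc θ β τ k (hi q A) - rc θ β τ k (lo q A) = -(2 * β) - θ / 2 * Kt q τ A := by
  unfold rc Kt
  push_cast
  rw [if_neg (by omega), if_pos hF.1]
  ring

/-- Strands from the free to the wired part. -/
theorem wJ_fw (hl : ¬ IsLp D A) (hF : lo q A < k ∧ k ≤ hi q A) :
    wJ θ β q D k τ A = Real.cos (θ / 2 - β - θ / 2 * Kt q τ A) / Real.sin θ := by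
  unfold wJ wB
  rw [if_neg hl, if_pos hF, rc_fw hF]
  congr 2
  ring

/-- Closed strands. -/
theorem wJ_cl (hl : ¬ IsLp D A) (h : lo q A ≤ hi q A) (hF : ¬ (lo q A < k ∧ k ≤ hi q A))
    (hC : IsCl D q k A) :
    wJ θ β q D k τ A = Real.sin (2 * θ - θ / 2 * Kt q τ A) / Real.sin (2 * θ) := by
  unfold wJ wB
  rw [if_neg hl, if_neg hF, if_pos hC, rc_same h hF]
  congr 2

/-- The other strands. -/
theorem wJ_ot (hl : ¬ IsLp D A) (h : lo q A ≤ hi q A) (hF : ¬ (lo q A < k ∧ k ≤ hi q A))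
    (hC : ¬ IsCl D q k A) :
    wJ θ β q D k τ A = Real.sin (θ + θ / 2 * Kt q τ A) / Real.sin θ := by
  unfold wJ wB
  rw [if_neg hl, if_neg hF, if_neg hC, rc_same h hF]
  congr 2
  ring

/-- **Upper bound.** -/
theorem abs_wJ_le (h0 : 0 < θ) (h1 : θ ≤ Real.pi / 3) (hq : IsPolygon q) (hD : Encloses q D)
    (hA : A ∈ pcs ω D) : |wJ θ β q D k τ A| ≤ 1 / Real.sin θ + 1 / Real.sin (2 * θ) := by
  have hs1 := sin_pos' h0 h1
  have hs2 := sin2_pos h0 h1
  have e1 : 0 < 1 / Real.sin θ := by positivity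
  have e2 : 0 < 1 / Real.sin (2 * θ) := by positivity
  have hc : 0 < Real.cos θ := Real.cos_pos_of_mem_Ioo ⟨by linarith [Real.pi_pos], by
    linarith [Real.pi_pos]⟩
  by_cases hl : IsLp D A
  · rw [wJ_lp hq hD hA hl hc.ne', abs_one]
    have h3 : 1 ≤ 1 / Real.sin θ := by
      rw [le_div_iff₀ hs1, one_mul]
      exact Real.sin_le_one _
    linarith
  · have h := (feet hq hD hA hl).1.le
    by_cases hF : lo q A < k ∧ k ≤ hi q A
    · rw [wJ_fw hl hF]
      exact (abs_div_le' hs1 _).trans (by linarith)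
    · by_cases hC : IsCl D q k A
      · rw [wJ_cl hl h hF hC]
        exact (abs_div_le hs2 _).trans (by linarith)
      · rw [wJ_ot hl h hF hC]
        exact (abs_div_le hs1 _).trans (by linarith)

/-- Strands with weight different from one turn. -/
theorem turn_of_ne_one (h0 : 0 < θ) (h1 : θ ≤ Real.pi / 3) (hq : IsPolygon q) (hD : Encloses q D)
    (hA : A ∈ pcs ω D) (hw : wJ θ β q D k τ A ≠ 1) :
    ¬ IsLp D A ∧ (τ (hi q A) ≠ τ (lo q A) ∨ (lo q A < k ∧ k ≤ hi q A)) := by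
  have hs1 := sin_pos' h0 h1
  have hs2 := sin2_pos h0 h1
  have hc : 0 < Real.cos θ := Real.cos_pos_of_mem_Ioo ⟨by linarith [Real.pi_pos], by
    linarith [Real.pi_pos]⟩
  have hl : ¬ IsLp D A := fun hl => hw (wJ_lp hq hD hA hl hc.ne')
  refine ⟨hl, ?_⟩
  by_contra hn
  push Not at hn
  obtain ⟨hK, hF⟩ := hn
  have hF' : ¬ (lo q A < k ∧ k ≤ hi q A) := fun h => absurd (hF h.1) (by omega)
  have hK' : Kt q τ A = 0 := by unfold Kt; rw [hK, sub_self]
  have h := (feet hq hD hA hl).1.le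
  by_cases hC : IsCl D q k A
  · rw [wJ_cl hl h hF' hC, hK', Int.cast_zero, mul_zero, sub_zero, div_self hs2.ne'] at hw
    exact hw rfl
  · rw [wJ_ot hl h hF' hC, hK', Int.cast_zero, mul_zero, add_zero, div_self hs1.ne'] at hw
    exact hw rfl

/-- **Lower bound** for the strands inside of the free or the wired part. -/
theorem exists_low_wJ (h0 : 0 < θ) (h1 : θ ≤ Real.pi / 3) : ∃ c : ℝ, 0 < c ∧ c ≤ 1 ∧
    ∀ {N : ℕ} {q : ZMod N → ℤ × ℤ} {D : Finset (ℤ × ℤ)} {ω : Cfg} {A : Finset Ed} {τ : ℕ → ℤ}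
      {k : ℕ} {β : ℝ}, IsPolygon q → Encloses q D → A ∈ pcs ω D →
      ¬ (lo q A < k ∧ k ≤ hi q A) → -1 ≤ Kt q τ A → Kt q τ A ≤ 3 → c ≤ wJ θ β q D k τ A := by
  obtain ⟨c, hc0, hc1, hc⟩ := exists_low h0 h1
  refine ⟨c, hc0, hc1, fun {N q D ω A τ k β} hq hD hA hF hK0 hK1 => ?_⟩
  by_cases hl : IsLp D A
  · have hcos : 0 < Real.cos θ := Real.cos_pos_of_mem_Ioo ⟨by linarith [Real.pi_pos], by
      linarith [Real.pi_pos]⟩
    rwa [wJ_lp hq hD hA hl hcos.ne']
  · have h := (feet hq hD hA hl).1.le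
    by_cases hC : IsCl D q k A
    · rw [wJ_cl hl h hF hC]
      exact (hc _ hK0 hK1).1
    · rw [wJ_ot hl h hF hC]
      exact (hc _ hK0 hK1).2

/-- The weight of the strands from the free to the wired part, second gauge. -/
theorem wJ_fw2 (hβ : β = (θ - Real.pi) / 2) (hl : ¬ IsLp D A) (hF : lo q A < k ∧ k ≤ hi q A) :
    wJ θ β q D k τ A = Real.sin (θ / 2 * Kt q τ A) / Real.sin θ := by
  rw [wJ_fw hl hF, hβ]
  have : θ / 2 - (θ - Real.pi) / 2 - θ / 2 * (Kt q τ A : ℝ) =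
      Real.pi / 2 - θ / 2 * (Kt q τ A : ℝ) := by ring
  rw [this, Real.cos_pi_div_two_sub]

/-! ### large strands -/

theorem one_le_diam (hA : A ∈ pcs ω D) (hl : ¬ IsLp D A) :
    ∃ e ∈ A, ∃ e' ∈ A, 1 ≤ nm (hdv e - hdv e') := by
  obtain ⟨e, he, h1⟩ := exists_entry hA hl
  have h2 : hdv e ∈ D := (mem_eds.1 (subset_eds hA he)).resolve_right h1
  obtain ⟨e', he', h3⟩ := exists_exit hl
  refine ⟨e, he, e', he', ?_⟩
  have h4 : hdv e ≠ hdv e' := fun h => h3 (h ▸ h2)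
  by_contra hlt
  push Not at hlt
  have h5 := H825.Reg.nm_nn (hdv e - hdv e')
  have h6 : nm (hdv e - hdv e') = 0 := by omega
  apply h4
  unfold nm at h6
  have h7 := le_max_left |(hdv e - hdv e').1| |(hdv e - hdv e').2|
  have h8 := le_max_right |(hdv e - hdv e').1| |(hdv e - hdv e').2|
  rw [h6] at h7 h8
  have h9 := abs_nonpos_iff.1 h7
  have h10 := abs_nonpos_iff.1 h8
  ext
  · simp only [Prod.fst_sub] at h9; omega
  · simp only [Prod.snd_sub] at h10; omega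

/-- **A strand with weight different from one is local or large.** -/
theorem large_of_ne_one (h0 : 0 < θ) (h1 : θ ≤ Real.pi / 3) (hG : GeoN n N q τ)
    (hq : IsPolygon q) (hD : Encloses q D) (hA : A ∈ pcs ω D) (hw : wJ θ β q D k τ A ≠ 1) {r : ℤ}
    (hr : r ≤ n)
    (hout : ∀ j, j < N → Spe τ k j → ¬ ∀ e ∈ A, hdv e ∈ FK.Bq (q (j : ZMod N)) r) :
    ∃ e ∈ A, ∃ e' ∈ A, (r : ℝ) / 16 ≤ nm (hdv e - hdv e') := by
  obtain ⟨hl, hK⟩ := turn_of_ne_one h0 h1 hq hD hA hw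
  obtain ⟨f, hf, f', hf', h2⟩ := one_le_diam hA hl
  by_cases hr16 : r ≤ 16
  · refine ⟨f, hf, f', hf', ?_⟩
    have e1 : (r : ℝ) ≤ 16 := by exact_mod_cast hr16
    have e2 : (1 : ℝ) ≤ nm (hdv f - hdv f') := by exact_mod_cast h2
    linarith
  · push Not at hr16
    by_contra hc
    push Not at hc
    -- all edges are close to each other
    have hd : ∀ e ∈ A, ∀ e' ∈ A, nm (hdv e - hdv e') ≤ r / 16 := by
      intro e he e' he'
      have h3 := hc e he e' he'
      have h4 : (16 * nm (hdv e - hdv e') : ℤ) < r := by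
        have : ((16 * nm (hdv e - hdv e') : ℤ) : ℝ) < (r : ℝ) := by
          push_cast
          linarith
        exact_mod_cast this
      omega
    obtain ⟨j, j1, j2, j3⟩ := local_of_small hG hq hD hA hl hK (m := r / 16) (by omega) hd
    refine hout j j1 j2 fun e he => ?_
    have h3 := j3 e he
    have h4 : nm (hdv e - q (j : ZMod N)) < r := by omega
    unfold FK.Bq
    unfold nm at h4
    rw [max_lt_iff, abs_lt, abs_lt] at h4
    simp only [Prod.fst_sub, Prod.snd_sub] at h4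
    rw [Finset.mem_product, Finset.mem_Ico, Finset.mem_Ico]
    omega

end Vale.Agent.P167.H601.LG
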