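import Vale.Agent.P167.H825.Reg.Near
import Vale.Agent.P167.H718.Par3

/-!
# P167, general `q`, block Q-LAM (LG): indices along the boundary of an enlargement

`GeoN n N q u`: near sites of the polygon `q` have near indices, two corners (changes of the lifted
direction `u`) are at distance at least `n` along the polygon. Enlargements have this property.
-/

namespace Vale.Agent.P167.H601.LG

open Finset
open Vale.Agent.P167.Enl
open Vale.Agent.P167.E6 (IsPolygon Encloses dir face)
open Vale.Agent.P167.H825 (enl pdir)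
open Vale.Agent.P167.H825.Reg (near_idx lip nm_nn)
open Vale.Agent.P167.H871 (Bd)
open Vale.Agent.P167.H718 (poly_add encl_add)

section rot

variable {N N' : ℕ} {q : ZMod N → ℤ × ℤ} {q' : ZMod N' → ℤ × ℤ} {D : Finset (ℤ × ℤ)}

theorem poly_next (hq : IsPolygon q) (hD : Encloses q D) (hq' : IsPolygon q') (hD' : Encloses q' D)
    {i : ZMod N} {i' : ZMod N'} (h : q i = q' i') : q (i + 1) = q' (i' + 1) := by
  obtain ⟨r, hr⟩ := hq.2.2 i
  obtain ⟨j, hj, hj'⟩ := (hD' (q i) r).2 ((hD (q i) r).1 ⟨i, rfl, hr⟩)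
  rw [h] at hj
  rw [hq'.2.1 hj] at hj'
  rw [hr, hj']

/-- Two polygons around the same set differ by a rotation. -/
theorem poly_rot (hq : IsPolygon q) (hD : Encloses q D) (hq' : IsPolygon q')
    (hD' : Encloses q' D) : N = N' ∧ ∃ s : ℕ, ∀ j : ℕ, q (j : ZMod N) = q' ((s + j : ℕ) : ZMod N') := by
  have hn : NeZero N := ⟨by have := hq.1; omega⟩
  have hn' : NeZero N' := ⟨by have := hq'.1; omega⟩
  obtain ⟨r, hr⟩ := hq.2.2 0
  obtain ⟨i', hi', -⟩ := (hD' (q 0) r).2 ((hD (q 0) r).1 ⟨0, rfl, hr⟩)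
  have key : ∀ j : ℕ, q (j : ZMod N) = q' ((i'.val + j : ℕ) : ZMod N') := by
    intro j
    induction j with
    | zero => rw [Nat.cast_zero, add_zero, ZMod.natCast_zmod_val, hi']
    | succ j ih =>
      have h := poly_next hq hD hq' hD' ih
      push_cast at h ⊢
      rw [h, add_assoc]
  refine ⟨?_, i'.val, key⟩
  have h1 : N' ∣ N := by
    have h := key N
    rw [ZMod.natCast_self, ← hi'] at h
    have h2 := hq'.2.1 h
    rw [Nat.cast_add, ZMod.natCast_zmod_val] at h2
    rw [← ZMod.natCast_eq_zero_iff]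
    have h3 : i' + 0 = i' + (N : ZMod N') := by rw [add_zero]; exact h2
    exact (add_left_cancel h3).symm
  have h2 : N ∣ N' := by
    have h := key N'
    rw [Nat.cast_add, ZMod.natCast_self, add_zero, ZMod.natCast_zmod_val, hi'] at h
    rw [← ZMod.natCast_eq_zero_iff]
    exact hq.2.1 h
  exact Nat.dvd_antisymm h2 h1

end rot

/-- Near sites of `q` have near indices; corners are at distance at least `n`. -/
structure GeoN (n N : ℕ) (q : ZMod N → ℤ × ℤ) (u : ℕ → ℤ) : Prop where
  pos : 0 < n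
  le : 3 * n ≤ N
  near : ∀ {x y : ℕ}, x ≤ N → y ≤ N → ∀ {d : ℤ}, 3 * d < n →
    nm (q (x : ZMod N) - q (y : ZMod N)) ≤ d →
    |(x : ℤ) - y| ≤ 2 * d ∨ (N : ℤ) - |(x : ℤ) - y| ≤ 2 * d
  lip : ∀ x y : ℕ, nm (q (x : ZMod N) - q (y : ZMod N)) ≤ |(x : ℤ) - y|
  gap : ∀ {i j : ℕ}, i < j → u (i + 1) ≠ u i → u (j + 1) ≠ u j → i + n ≤ j
  turn : ∀ k, |u (k + 1) - u k| ≤ 1
  per : ∀ k, u (k + N) = u k + 4

section enl

variable {l N : ℕ} {p : ZMod l → ℤ × ℤ} {q : ZMod N → ℤ × ℤ} {S₀ : Finset (ℤ × ℤ)} {n : ℕ}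
  {a : ℤ × ℤ} {u : ℕ → ℤ}

/-- A polygon around a translated enlargement is a translated enlarged polygon. -/
theorem exists_PN (hp : IsPolygon p) (hS : Encloses p S₀) (hn : 0 < n) (hq : IsPolygon q)
    (hD : Encloses q ((enl S₀ n).image (· + a))) :
    N = l * n ∧ ∃ s : ℕ, ∀ j : ℕ, q (j : ZMod N) = PN p n (j + s) + a := by
  have hl : NeZero l := ⟨by have := hp.1; omega⟩
  have h1 := poly_add (isPolygon_qN hn hp 0) a
  have h2 := encl_add (encloses_qN hn hp hS 0) a
  obtain ⟨h3, s, h4⟩ := poly_rot hq hD h1 h2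
  refine ⟨h3, s, fun j => ?_⟩
  rw [h4 j]
  show qN p n 0 ((s + j : ℕ) : ZMod (l * n)) + a = _
  rw [qN_nat hn, add_zero, add_comm s j]

/-- **Enlargements.** -/
theorem geoN_enl (hp : IsPolygon p) (hS : Encloses p S₀) (hn : 0 < n) (hq : IsPolygon q)
    (hD : Encloses q ((enl S₀ n).image (· + a)))
    (hu : Bd (((enl S₀ n).image (· + a) : Finset (ℤ × ℤ)) : Set (ℤ × ℤ)) N
      (fun k => q (k : ZMod N)) u 1) : GeoN n N q u := by
  have hl : NeZero l := ⟨by have := hp.1; omega⟩
  obtain ⟨hN, s, hs⟩ := exists_PN hp hS hn hq hD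
  have hNe : (N : ℤ) = l * n := by rw [hN]; push_cast; ring
  refine ⟨hn, ?_, ?_, ?_, ?_, hu.turn, fun k => by rw [hu.per k]; ring⟩
  · rw [hN]
    exact Nat.mul_le_mul_right n (by have := hp.1; omega)
  · intro x y hx hy d hd h
    rw [hs, hs, add_sub_add_right_eq_sub] at h
    rw [hN] at hx hy
    have := near_idx hp hn hx hy hd h
    rw [hNe]
    exact this
  · intro x y
    rw [hs, hs, add_sub_add_right_eq_sub]
    have := lip hp hn (x + s) (y + s)
    have h6 : ((x + s : ℕ) : ℤ) - ((y + s : ℕ) : ℤ) = x - y := by push_cast; ring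
    rwa [h6] at this
  · -- corners are at multiples of `n`
    have key : ∀ i : ℕ, u (i + 1) ≠ u i → n ∣ i + 1 + s := by
      intro i hi
      by_contra hc
      apply hi
      have hdiv : (i + 1 + s) / n = (i + s) / n := by
        have h1 : i + 1 + s = i + s + 1 := by ring
        rw [h1, Nat.succ_div, if_neg (by rwa [← h1]), add_zero]
      have h1 : ∀ k, Top.vec (u k) = dir (pdir p ((k + s) / n)) := by
        intro k
        have h2 := hu.step k
        rw [hs, hs, show k + 1 + s = k + s + 1 by ring, PN_succ hn hp] at h2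
        have h3 : PN p n (k + s) + a + dir (pdir p ((k + s) / n)) =
            PN p n (k + s) + a + Top.vec (u k) := by
          rw [← h2]; ring
        exact (add_left_cancel h3).symm
      have h2 : Top.vec (u (i + 1)) = Top.vec (u i) := by rw [h1, h1, hdiv]
      have h3 := vec_eq_mod h2
      have h4 := hu.turn i
      rw [abs_le] at h4
      omega
    intro i j hij hi hj
    obtain ⟨x, hx⟩ := key i hi
    obtain ⟨y, hy⟩ := key j hj
    have h1 : x < y := by
      by_contra hc
      push Not at hc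
      have := Nat.mul_le_mul_left n hc
      omega
    have h2 : n * (x + 1) ≤ n * y := Nat.mul_le_mul_left n h1
    rw [mul_add, mul_one] at h2
    omega

end enl

/-- Where the direction changes there is a corner. -/
theorem exists_corner {u : ℕ → ℤ} {x y : ℕ} (hxy : x ≤ y) (hu : u y ≠ u x) :
    ∃ j, x ≤ j ∧ j < y ∧ u (j + 1) ≠ u j := by
  by_contra hc
  push Not at hc
  apply hu
  obtain ⟨m, rfl⟩ := Nat.exists_eq_add_of_le hxy
  clear hxy hu
  induction m with
  | zero => rfl
  | succ m ih =>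
    rw [← add_assoc, hc (x + m) (by omega) (by omega)]
    exact ih fun j h1 h2 => hc j h1 (by omega)

/-- No corner, no change. -/
theorem eq_of_none {u : ℕ → ℤ} {x y : ℕ} (hxy : x ≤ y)
    (hc : ∀ j, x ≤ j → j < y → u (j + 1) = u j) : u y = u x := by
  by_contra hne
  obtain ⟨j, h1, h2, h3⟩ := exists_corner hxy hne
  exact h3 (hc j h1 h2)

namespace GeoN

variable {n N : ℕ} {q : ZMod N → ℤ × ℤ} {u : ℕ → ℤ} (h : GeoN n N q u)
include h

/-- One corner in a short window. -/
theorem change {x y j : ℕ} (h1 : x ≤ j) (h2 : j < y) (hn : y ≤ x + n) (hj : u (j + 1) ≠ u j) :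
    u y - u x = u (j + 1) - u j := by
  have e1 : u j = u x := eq_of_none h1 fun i hi hi' => by
    by_contra hne
    have := h.gap hi' hne hj
    omega
  have e2 : u y = u (j + 1) := eq_of_none (by omega) fun i hi hi' => by
    by_contra hne
    have := h.gap (show j < i by omega) hj hne
    omega
  rw [e1, e2]

/-- Small windows. -/
theorem change_le {x y : ℕ} (hxy : x ≤ y) (hn : y ≤ x + n) : |u y - u x| ≤ 1 := by
  by_cases hu : u y = u x
  · rw [hu, sub_self]
    simp
  · obtain ⟨j, h1, h2, h3⟩ := exists_corner hxy hu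
    rw [h.change h1 h2 hn h3]
    exact h.turn j

/-- The change around the base. -/
theorem wrap {x y : ℕ} : u x - u y = 4 - (u (y + N) - u x) := by
  rw [h.per y]
  ring

theorem lip_wrap {x y : ℕ} (hx : x ≤ N) (hy : y ≤ N) :
    nm (q (x : ZMod N) - q (y : ZMod N)) ≤ (N : ℤ) - |(x : ℤ) - y| := by
  have h1 := h.lip (x + N) y
  have h2 := h.lip x (y + N)
  have e1 : ((x + N : ℕ) : ZMod N) = x := by push_cast; rw [ZMod.natCast_self, add_zero]
  have e2 : ((y + N : ℕ) : ZMod N) = y := by push_cast; rw [ZMod.natCast_self, add_zero]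
  rw [e1] at h1
  rw [e2] at h2
  push_cast at h1 h2
  rcases le_total x y with hxy | hxy
  · have h3 : |(x : ℤ) + N - y| = N - |(x : ℤ) - y| := by
      rw [abs_of_nonneg (by omega), abs_of_nonpos (by omega)]
      ring
    rwa [h3] at h1
  · have h3 : |(x : ℤ) - (y + N)| = N - |(x : ℤ) - y| := by
      rw [abs_of_nonpos (by omega), abs_of_nonneg (by omega)]
      ring
    rwa [h3] at h2

end GeoN

end Vale.Agent.P167.H601.LG
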