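import Vale.Agent.P167.H601.LG.Wt

/-!
# P167, general `q`, block Q-LAM (LG): strands near the special points

Turning and type of the strands inside of small boxes around the corners, the base and the junction.
-/

namespace Vale.Agent.P167.H601.LG

open Finset
open Vale.Agent.P167.E6 (IsPolygon Encloses dir face)
open Vale.Agent.P167.BR
open Vale.Agent.P167.QX (lo hi lo_xy hi_xy exists_xy wB)
open Vale.Agent.P167.H718 (IsXY IsCl rc)

variable {N : ℕ} {q : ZMod N → ℤ × ℤ} {D : Finset (ℤ × ℤ)} {ω : Cfg} {A : Finset Ed} {τ : ℕ → ℤ}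
  {n k L : ℕ} {θ β : ℝ}

/-- The special points are at distance at least `L` along the boundary. -/
def SepL (L N : ℕ) (τ : ℕ → ℤ) (k : ℕ) : Prop :=
  ∀ i j, i < j → j < N → Spe τ k i → Spe τ k j → i + L ≤ j ∧ j + L ≤ i + N

theorem eq_of_noSpe {x y : ℕ} (hxy : x ≤ y) (h : ∀ j, x < j → j ≤ y → ¬ Spe τ k j) :
    τ y = τ x := by
  refine eq_of_none hxy fun j h1 h2 => ?_
  by_contra hne
  exact h (j + 1) (by omega) (by omega) (Or.inr (Or.inr ⟨by omega, by simpa using hne⟩))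

theorem change_of_spe {x y j : ℕ} (h1 : x < j) (h2 : j ≤ y)
    (h : ∀ i, x < i → i ≤ y → Spe τ k i → i = j) : τ y - τ x = τ j - τ (j - 1) := by
  have e1 : τ (j - 1) = τ x := eq_of_noSpe (k := k) (by omega) fun i hi hi' hs => by
    have := h i hi (by omega) hs
    omega
  have e2 : τ y = τ j := eq_of_noSpe (k := k) h2 fun i hi hi' hs => by
    have := h i (by omega) hi' hs
    omega
  rw [e1, e2]

/-- The strand goes from the free to the wired part. -/
def Fw (q : ZMod N → ℤ × ℤ) (k : ℕ) (A : Finset Ed) : Prop := lo q A < k ∧ k ≤ hi q A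

theorem nm_of_Bq {v x : ℤ × ℤ} {r : ℤ} (h : v ∈ FK.Bq x r) : nm (v - x) ≤ r := by
  unfold FK.Bq at h
  rw [mem_product, mem_Ico, mem_Ico] at h
  unfold nm
  rw [max_le_iff, abs_le, abs_le]
  simp only [Prod.fst_sub, Prod.snd_sub]
  omega

/-- **Strands near a special point which is not the base.** -/
theorem near_spe (hG : GeoN n N q τ) (hq : IsPolygon q) (hD : Encloses q D)
    (hA : A ∈ pcs ω D) (hl : ¬ IsLp D A) (hS : SepL L N τ k) {j : ℕ} (hj0 : 0 < j) (hjN : j < N)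
    (hj : Spe τ k j) {r : ℤ} (hr : 3 * (r + 1) < n) (hrL : 2 * (r + 1) < L)
    (hin : ∀ e ∈ A, hdv e ∈ FK.Bq (q (j : ZMod N)) r) :
    ((lo q A < j ∧ j ≤ hi q A) ∧ Kt q τ A = τ j - τ (j - 1) ∧ (Fw q k A ↔ j = k)) ∨
      (¬ (lo q A < j ∧ j ≤ hi q A) ∧ Kt q τ A = 0 ∧ ¬ Fw q k A) := by
  obtain ⟨h1, h2, h3, h4⟩ := feet hq hD hA hl
  have hd : ∀ e ∈ A, nm (hdv e - q (j : ZMod N)) ≤ r := fun e he => nm_of_Bq (hin e he)
  have hr0 : 0 ≤ r := (H825.Reg.nm_nn _).trans (hd _ h3)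
  obtain ⟨h5, h6⟩ := feet_near hG hq hD hA hl hjN.le hr hd
  obtain ⟨s1, s2⟩ := hS 0 j hj0 hjN (Or.inl rfl) hj
  -- the feet are on both sides of `j`
  have a1 : |(lo q A : ℤ) - j| ≤ 2 * (r + 1) := by
    rcases h5 with h5 | h5
    · exact h5
    · exfalso
      rcases abs_cases ((lo q A : ℤ) - j) with ⟨a1, a2⟩ | ⟨a1, a2⟩ <;> rw [a1] at h5 <;> omega
  have a2 : |(hi q A : ℤ) - j| ≤ 2 * (r + 1) := by
    rcases h6 with h6 | h6
    · exact h6
    · exfalso
      rcases abs_cases ((hi q A : ℤ) - j) with ⟨a1, a2⟩ | ⟨a1, a2⟩ <;> rw [a1] at h6 <;> omega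
  rw [abs_le] at a1 a2
  -- there is no other special point
  have huni : ∀ i, lo q A < i → i ≤ hi q A → Spe τ k i → i = j := by
    intro i i1 i2 i3
    by_contra hne
    rcases Nat.lt_or_gt_of_ne hne with h7 | h7
    · have := (hS i j h7 hjN i3 hj).1
      omega
    · have := (hS j i h7 (by omega) hj i3).1
      omega
  by_cases hb : lo q A < j ∧ j ≤ hi q A
  · left
    refine ⟨hb, change_of_spe hb.1 hb.2 huni, ?_⟩
    constructor
    · rintro ⟨f1, f2⟩
      exact (huni k f1 f2 (Or.inr (Or.inl rfl))).symm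
    · rintro rfl
      exact hb
  · right
    have hno : ∀ i, lo q A < i → i ≤ hi q A → ¬ Spe τ k i := by
      intro i i1 i2 i3
      have := huni i i1 i2 i3
      exact hb ⟨this ▸ i1, this ▸ i2⟩
    refine ⟨hb, ?_, fun hF => hno k hF.1 hF.2 (Or.inr (Or.inl rfl))⟩
    unfold Kt
    rw [eq_of_noSpe (k := k) h1.le hno, sub_self]

/-- **Strands near the base.** -/
theorem near_base (hG : GeoN n N q τ) (hq : IsPolygon q) (hD : Encloses q D)
    (hA : A ∈ pcs ω D) (hl : ¬ IsLp D A) (hS : SepL L N τ k) (hk : k ≤ N)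
    {r : ℤ} (hr : 3 * (r + 1) < n) (hrL : 4 * (r + 1) < L)
    (hin : ∀ e ∈ A, hdv e ∈ FK.Bq (q 0) r) :
    (Kt q τ A = 0 ∧ ¬ Fw q k A) ∨
      (((lo q A : ℤ) ≤ 2 * (r + 1) ∧ (N : ℤ) - hi q A ≤ 2 * (r + 1)) ∧
        Kt q τ A = 4 - (τ N - τ (N - 1)) ∧ (Fw q k A ↔ (0 < k ∧ k < N))) := by
  obtain ⟨h1, h2, h3, h4⟩ := feet hq hD hA hl
  have hd : ∀ e ∈ A, nm (hdv e - q ((0 : ℕ) : ZMod N)) ≤ r := fun e he => by
    rw [Nat.cast_zero]
    exact nm_of_Bq (hin e he)
  have hr0 : 0 ≤ r := (H825.Reg.nm_nn _).trans (hd _ h3)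
  have hle := hG.le
  obtain ⟨h5, h6⟩ := feet_near hG hq hD hA hl (j := 0) (by omega) hr hd
  push_cast at h5 h6
  rw [sub_zero, Nat.abs_cast] at h5 h6
  -- special points near the base
  have hlow : ∀ i : ℕ, 0 < i → (i : ℤ) ≤ 2 * (r + 1) → ¬ Spe τ k i := by
    intro i i1 i2 i3
    have := (hS 0 i i1 (by omega) (Or.inl rfl) i3).1
    omega
  have hup : ∀ i : ℕ, i < N → (N : ℤ) - i ≤ 2 * (r + 1) → ¬ Spe τ k i := by
    intro i i1 i2 i3
    have := (hS 0 i (by omega) (by omega) (Or.inl rfl) i3).2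
    omega
  have hcase : (hi q A : ℤ) ≤ 2 * (r + 1) ∨ (N : ℤ) - lo q A ≤ 2 * (r + 1) ∨
      ((lo q A : ℤ) ≤ 2 * (r + 1) ∧ (N : ℤ) - hi q A ≤ 2 * (r + 1)) := by omega
  rcases hcase with h7 | h7 | ⟨h7, h8⟩
  · left
    have hno : ∀ i, lo q A < i → i ≤ hi q A → ¬ Spe τ k i := fun i i1 i2 =>
      hlow i (by omega) (by omega)
    refine ⟨?_, fun hF => hno k hF.1 hF.2 (Or.inr (Or.inl rfl))⟩
    unfold Kt
    rw [eq_of_noSpe (k := k) h1.le hno, sub_self]
  · left
    have hno : ∀ i, lo q A < i → i ≤ hi q A → ¬ Spe τ k i := fun i i1 i2 =>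
      hup i (by omega) (by omega)
    refine ⟨?_, fun hF => hno k hF.1 hF.2 (Or.inr (Or.inl rfl))⟩
    unfold Kt
    rw [eq_of_noSpe (k := k) h1.le hno, sub_self]
  · right
    have e1 : τ (N - 1) = τ (hi q A) := eq_of_noSpe (k := k) (by omega) fun i i1 i2 =>
      hup i (by omega) (by omega)
    have e2 : τ (lo q A) = τ 0 := eq_of_noSpe (k := k) (Nat.zero_le _) fun i i1 i2 =>
      hlow i (by omega) (by omega)
    have e3 : τ N = τ 0 + 4 := by
      have := hG.per 0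
      rwa [zero_add] at this
    refine ⟨⟨h7, h8⟩, ?_, ?_⟩
    · unfold Kt
      rw [← e1, e2, e3]
      ring
    · constructor
      · rintro ⟨f1, f2⟩
        exact ⟨by omega, by omega⟩
      · rintro ⟨f1, f2⟩
        have := hS 0 k f1 f2 (Or.inl rfl) (Or.inr (Or.inl rfl))
        exact ⟨by omega, by omega⟩

/-- The base is a convex corner for the free and the wired family; base and junction are in the
interior of sides for the Dobrushin family. -/
structure Typ (N k : ℕ) (τ : ℕ → ℤ) (β θ : ℝ) : Prop where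
  kle : k ≤ N
  one : k = 0 ∨ k = N → τ N - τ (N - 1) = 1
  dob : 0 < k → k < N → τ N = τ (N - 1) ∧ τ k = τ (k - 1)
  gau : β = (θ - Real.pi) / 2

/-- **Local lower bound**: the only strands with small weight are those over the junction. -/
theorem exists_low_loc (h0 : 0 < θ) (h1 : θ ≤ Real.pi / 3) : ∃ c : ℝ, 0 < c ∧ c ≤ 1 ∧
    ∀ {N : ℕ} {q : ZMod N → ℤ × ℤ} {D : Finset (ℤ × ℤ)} {ω : Cfg} {A : Finset Ed} {τ : ℕ → ℤ}
      {n k L : ℕ} {β : ℝ}, GeoN n N q τ → IsPolygon q → Encloses q D → A ∈ pcs ω D →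
      SepL L N τ k → Typ N k τ β θ → ∀ {r : ℤ}, 3 * (r + 1) < n → 4 * (r + 1) < L →
      ∀ {j : ℕ}, j < N → Spe τ k j → (∀ e ∈ A, hdv e ∈ FK.Bq (q (j : ZMod N)) r) →
      c ≤ wJ θ β q D k τ A ∨ (0 < k ∧ k < N ∧ j = k ∧ ¬ IsLp D A ∧ Fw q k A ∧ Kt q τ A = 0) := by
  obtain ⟨c, hc0, hc1, hc⟩ := exists_low_wJ h0 h1
  have hs1 := sin_pos' h0 h1
  have hs2 := sin2_pos h0 h1
  have hcos : 0 < Real.cos θ := Real.cos_pos_of_mem_Ioo ⟨by linarith [Real.pi_pos], by
    linarith [Real.pi_pos]⟩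
  have h2 : 0 < Real.sin (2 * θ) / Real.sin θ := div_pos hs2 hs1
  refine ⟨min c (Real.sin (2 * θ) / Real.sin θ), lt_min hc0 h2, (min_le_left _ _).trans hc1,
    fun {N q D ω A τ n k L β} hG hq hD hA hS hT {r} hr hrL {j} hjN hj hin => ?_⟩
  by_cases hl : IsLp D A
  · left
    rw [wJ_lp hq hD hA hl hcos.ne']
    exact (min_le_left _ _).trans hc1
  · rcases Nat.eq_zero_or_pos j with rfl | hj0
    · rw [Nat.cast_zero] at hin
      rcases near_base hG hq hD hA hl hS hT.kle hr hrL hin with ⟨a1, a2⟩ | ⟨-, a2, a3⟩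
      · left
        exact (min_le_left _ _).trans (hc hq hD hA a2 (by omega) (by omega))
      · left
        by_cases hk : 0 < k ∧ k < N
        · have hF := a3.2 hk
          have e := (hT.dob hk.1 hk.2).1
          rw [wJ_fw2 hT.gau hl hF, a2, e]
          refine (min_le_right _ _).trans (le_of_eq ?_)
          congr 2
          push_cast
          ring
        · have hF : ¬ Fw q k A := fun h => hk (a3.1 h)
          have e := hT.one (by have := hT.kle; omega)
          exact (min_le_left _ _).trans (hc hq hD hA hF (by omega) (by omega))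
    · rcases near_spe hG hq hD hA hl hS hj0 hjN hj hr (by omega) hin with ⟨a1, a2, a3⟩ | ⟨-, a2, a3⟩
      · by_cases hjk : j = k
        · right
          have e := (hT.dob (hjk ▸ hj0) (hjk ▸ hjN)).2
          exact ⟨hjk ▸ hj0, hjk ▸ hjN, hjk, hl, a3.2 hjk, by rw [a2, hjk, e, sub_self]⟩
        · left
          have hF : ¬ Fw q k A := fun h => hjk (a3.1 h)
          have ht := hG.turn (j - 1)
          rw [Nat.sub_add_cancel hj0, abs_le] at ht
          exact (min_le_left _ _).trans (hc hq hD hA hF (by omega) (by omega))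
      · left
        exact (min_le_left _ _).trans (hc hq hD hA a3 (by omega) (by omega))

end Vale.Agent.P167.H601.LG
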