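import Vale.Agent.P167.H601.LG.Loc

/-!
# P167, general `q`, block Q-LAM (LG): the special points of an enlargement are separated
-/

namespace Vale.Agent.P167.H601.LG

open Finset
open Vale.Agent.P167.Enl
open Vale.Agent.P167.E6 (IsPolygon Encloses dir face)
open Vale.Agent.P167.H825 (enl pdir)
open Vale.Agent.P167.H871 (Bd)

variable {l N : ℕ} {p : ZMod l → ℤ × ℤ} {q : ZMod N → ℤ × ℤ} {n s k L : ℕ}
  {a : ℤ × ℤ} {u : ℕ → ℤ} {D : Set (ℤ × ℤ)}

/-- Corners are at multiples of `n`. -/
theorem corner_dvd (hp : IsPolygon p) (hn : 0 < n)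
    (hs : ∀ j : ℕ, q (j : ZMod N) = PN p n (j + s) + a)
    (hu : Bd D N (fun k => q (k : ZMod N)) u 1) {i : ℕ} (hi : u (i + 1) ≠ u i) :
    n ∣ i + 1 + s := by
  by_contra hc
  apply hi
  have hdiv : (i + 1 + s) / n = (i + s) / n := by
    have h1 : i + 1 + s = i + s + 1 := by ring
    rw [h1, Nat.succ_div, if_neg (by rwa [← h1]), add_zero]
  have h1 : ∀ k, Top.vec (u k) = dir (pdir p ((k + s) / n)) := by
    intro k
    have h2 := hu.step k
    rw [hs, hs, show k + 1 + s = k + s + 1 by ring, PN_succ hn hp] at h2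
    have h3 : PN p n (k + s) + a + dir (pdir p ((k + s) / n)) =
        PN p n (k + s) + a + Top.vec (u k) := by
      rw [← h2]; ring
    exact (add_left_cancel h3).symm
  have h2 : Top.vec (u (i + 1)) = Top.vec (u i) := by rw [h1, h1, hdiv]
  have h3 := vec_eq_mod h2
  have h4 := hu.turn i
  rw [abs_le] at h4
  omega

/-- **The special points are separated.** The base is a corner or in the interior of a side, the
junction is in the interior of another side (of the unit polygon). -/
theorem sepL_enl (hp : IsPolygon p) (hn : 0 < n) (hN : N = l * n) (hLn : L ≤ n)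
    (hs : ∀ j : ℕ, q (j : ZMod N) = PN p n (j + s) + a)
    (hu : Bd D N (fun k => q (k : ZMod N)) u 1) (ht : s = 0 ∨ (L ≤ s ∧ s + L ≤ n))
    (hk : k = 0 ∨ k = N ∨ ∃ ia σ : ℕ, 0 < ia ∧ ia < l ∧ L ≤ σ ∧ σ + L ≤ n ∧ k + s = ia * n + σ) :
    SepL L N u k := by
  have hl := hp.1
  -- the three kinds of special points
  have hkind : ∀ i, i < N → Spe u k i → i = 0 ∨
      (∃ c, 0 < c ∧ c ≤ l ∧ i + s = c * n ∧ (s = 0 → c < l)) ∨
      (∃ ia σ : ℕ, 0 < ia ∧ ia < l ∧ L ≤ σ ∧ σ + L ≤ n ∧ i + s = ia * n + σ ∧ i = k) := by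
    intro i hi hsp
    rcases hsp with h | h | ⟨h1, h2⟩
    · exact Or.inl h
    · rcases hk with h3 | h3 | ⟨ia, σ, h3, h4, h5, h6, h7⟩
      · exact Or.inl (h.trans h3)
      · omega
      · exact Or.inr (Or.inr ⟨ia, σ, h3, h4, h5, h6, by rw [h]; exact h7, h⟩)
    · right; left
      clear hk
      have h3 : i - 1 + 1 = i := by omega
      have h4 := corner_dvd hp hn hs hu (i := i - 1) (by rw [h3]; exact h2)
      rw [h3] at h4
      obtain ⟨c, hc⟩ := h4
      rw [mul_comm] at hc
      rw [hN] at hi
      have hc0 : 0 < c := by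
        rcases Nat.eq_zero_or_pos c with h5 | h5
        · rw [h5, zero_mul] at hc
          omega
        · exact h5
      have hcl : c ≤ l := by
        by_contra h6
        push Not at h6
        have h7 : (l + 1) * n ≤ c * n := Nat.mul_le_mul_right n h6
        rw [add_mul, one_mul] at h7
        omega
      refine ⟨c, hc0, hcl, hc, fun h5 => ?_⟩
      by_contra h6
      have h7 : l * n ≤ c * n := Nat.mul_le_mul_right n (by omega)
      omega
  intro i j hij hjN hi hj
  have hiN := hij.trans hjN
  have kj := hkind j hjN hj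
  have ki := hkind i hiN hi
  have mono : ∀ x y : ℕ, x < y → x * n + n ≤ y * n := by
    intro x y hxy
    have h7 : (x + 1) * n ≤ y * n := Nat.mul_le_mul_right n hxy
    rwa [add_mul, one_mul] at h7
  rcases kj with rfl | ⟨c, c1, c2, c3, c4⟩ | ⟨ia, σ, b1, b2, b3, b4, b5, b6⟩
  · omega
  · have m1 := mono 0 c c1
    rw [zero_mul, zero_add] at m1
    have m2 : c * n ≤ l * n := Nat.mul_le_mul_right n c2
    have m3 : s = 0 → c * n + n ≤ l * n := fun h => mono c l (c4 h)
    rcases ki with rfl | ⟨c', c1', c2', c3', c4'⟩ | ⟨ia', σ', b1', b2', b3', b4', b5', b6'⟩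
    · rcases ht with h | ⟨h, h'⟩
      · have := m3 h
        constructor <;> omega
      · constructor <;> omega
    · have h1 : c' < c := by
        by_contra h6
        push Not at h6
        have h7 : c * n ≤ c' * n := Nat.mul_le_mul_right n h6
        omega
      have m4 := mono c' c h1
      have m5 := mono 0 c' c1'
      rw [zero_mul, zero_add] at m5
      constructor <;> omega
    · have h1 : ia' < c := by
        by_contra h6
        push Not at h6
        have h7 : c * n ≤ ia' * n := Nat.mul_le_mul_right n h6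
        omega
      have m4 := mono ia' c h1
      have m5 := mono 0 ia' b1'
      rw [zero_mul, zero_add] at m5
      constructor <;> omega
  · have m1 := mono 0 ia b1
    rw [zero_mul, zero_add] at m1
    have m2 := mono ia l b2
    rcases ki with rfl | ⟨c', c1', c2', c3', c4'⟩ | ⟨ia', σ', b1', b2', b3', b4', b5', b6'⟩
    · rcases ht with h | ⟨h, h'⟩
      · constructor <;> omega
      · constructor <;> omega
    · have h1 : c' ≤ ia := by
        by_contra h6
        push Not at h6
        have h7 := mono ia c' h6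
        omega
      have h2 : c' * n ≤ ia * n := Nat.mul_le_mul_right n h1
      constructor <;> omega
    · omega

end Vale.Agent.P167.H601.LG
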