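import Vale.Agent.P167.H601.LG.Idx
import Vale.Agent.P167.QX.Stag

/-!
# P167, general `q`, block Q-LAM (LG): strands which turn

A strand of an enlargement between two sides of different directions (or between the free and the
wired part) is contained in a small box around a corner, the base or the junction, or it is large.
-/

namespace Vale.Agent.P167.H601.LG

open Finset
open Vale.Agent.P167.E6 (IsPolygon Encloses dir face)
open Vale.Agent.P167.BR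
open Vale.Agent.P167.QX (lo hi lo_xy hi_xy exists_xy)
open Vale.Agent.P167.H718 (IsXY)

variable {N : ℕ} {q : ZMod N → ℤ × ℤ} {D : Finset (ℤ × ℤ)} {ω : Cfg} {A : Finset Ed} {u : ℕ → ℤ}
  {n k : ℕ}

theorem nm_face (v : ℤ × ℤ) (r : Fin 4) : nm (face v r - v) ≤ 1 := by
  obtain ⟨a, b⟩ := v
  have f0 : face (a, b) 0 = (a + 0, b + 0) := rfl
  have f1 : face (a, b) 1 = (a + -1, b + 0) := rfl
  have f2 : face (a, b) 2 = (a + -1, b + -1) := rfl
  have f3 : face (a, b) 3 = (a + 0, b + -1) := rfl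
  have hr : r = 0 ∨ r = 1 ∨ r = 2 ∨ r = 3 := by fin_cases r <;> simp
  rcases hr with rfl | rfl | rfl | rfl
  · rw [f0]; simp [nm]
  · rw [f1]; simp [nm]
  · rw [f2]; simp [nm]
  · rw [f3]; simp [nm]

/-- The head of a boundary edge is next to the side. -/
theorem nm_be (i : ZMod N) : nm (hdv (be q i) - q i) ≤ 1 := by
  unfold be
  by_cases h : Even ((q i).1 + (q i).2)
  · rw [(ce_even h _).2.2.1]
    exact nm_face _ _
  · rw [(ce_odd h _).2.2.2]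
    exact nm_face _ _

theorem nm_tri' (a b c : ℤ × ℤ) : nm (a - c) ≤ nm (a - b) + nm (b - c) := by
  have := Enl.nm_tri a b c
  exact this

theorem nm_comm (a b : ℤ × ℤ) : nm (a - b) = nm (b - a) := Enl.nm_sub_comm a b

/-- The feet of a strand. -/
theorem feet (hq : IsPolygon q) (hD : Encloses q D) (hA : A ∈ pcs ω D) (hl : ¬ IsLp D A) :
    lo q A < hi q A ∧ hi q A < N ∧ be q (lo q A : ZMod N) ∈ A ∧ be q (hi q A : ZMod N) ∈ A := by
  obtain ⟨x, y, h⟩ := exists_xy hq hD hA hl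
  have hne := h.ne
  rw [lo_xy hq hD hA h, hi_xy hq hD hA h]
  obtain ⟨hx, hy, h1, h2, -, -⟩ := h
  rcases le_total x y with h3 | h3
  · rw [min_eq_left h3, max_eq_right h3]
    exact ⟨lt_of_le_of_ne h3 hne, hy, h1, h2⟩
  · rw [min_eq_right h3, max_eq_left h3]
    exact ⟨lt_of_le_of_ne h3 (Ne.symm hne), hx, h2, h1⟩

/-- The base, the junction and the corners. -/
def Spe (u : ℕ → ℤ) (k j : ℕ) : Prop := j = 0 ∨ j = k ∨ (0 < j ∧ u j ≠ u (j - 1))

/-- **A strand which turns is local or large.** -/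
theorem local_of_small (hG : GeoN n N q u) (hq : IsPolygon q) (hD : Encloses q D)
    (hA : A ∈ pcs ω D) (hl : ¬ IsLp D A)
    (hw : u (hi q A) ≠ u (lo q A) ∨ (lo q A < k ∧ k ≤ hi q A)) {m : ℤ}
    (hm : 3 * (m + 2) < n) (hd : ∀ e ∈ A, ∀ e' ∈ A, nm (hdv e - hdv e') ≤ m) :
    ∃ j : ℕ, j < N ∧ Spe u k j ∧ ∀ e ∈ A, nm (hdv e - q (j : ZMod N)) ≤ 3 * m + 5 := by
  obtain ⟨h1, h2, h3, h4⟩ := feet hq hD hA hl
  have hm0 : 0 ≤ m := (H825.Reg.nm_nn _).trans (hd _ h3 _ h3)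
  set x := lo q A
  set y := hi q A
  have e1 := nm_be (q := q) (x : ZMod N)
  have e2 := nm_be (q := q) (y : ZMod N)
  have e3 := hd _ h3 _ h4
  have hxy : nm (q (x : ZMod N) - q (y : ZMod N)) ≤ m + 2 := by
    have k1 := nm_tri' (q (x : ZMod N)) (hdv (be q (x : ZMod N))) (q (y : ZMod N))
    have k2 := nm_tri' (hdv (be q (x : ZMod N))) (hdv (be q (y : ZMod N))) (q (y : ZMod N))
    rw [nm_comm] at e1
    omega
  -- every edge is close to the first foot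
  have hx : ∀ e ∈ A, ∀ j : ℕ, nm (q (x : ZMod N) - q (j : ZMod N)) ≤ 2 * (m + 2) →
      nm (hdv e - q (j : ZMod N)) ≤ 3 * m + 5 := by
    intro e he j hj
    have k1 := nm_tri' (hdv e) (hdv (be q (x : ZMod N))) (q (j : ZMod N))
    have k2 := nm_tri' (hdv (be q (x : ZMod N))) (q (x : ZMod N)) (q (j : ZMod N))
    have k3 := hd _ he _ h3
    omega
  rcases hG.near (by omega) h2.le hm hxy with h5 | h5
  · rw [abs_of_nonpos (by omega)] at h5
    obtain ⟨j, j1, j2, j3, j4⟩ : ∃ j, x < j ∧ j ≤ y ∧ j < N ∧ Spe u k j := by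
      rcases hw with hw | ⟨w1, w2⟩
      · obtain ⟨j, j1, j2, j3⟩ := exists_corner h1.le hw
        exact ⟨j + 1, by omega, by omega, by omega, Or.inr (Or.inr ⟨by omega, by simpa using j3⟩)⟩
      · exact ⟨k, w1, w2, by omega, Or.inr (Or.inl rfl)⟩
    refine ⟨j, j3, j4, fun e he => hx e he j ?_⟩
    have k1 := hG.lip x j
    rw [abs_of_nonpos (by omega)] at k1
    omega
  · rw [abs_of_nonpos (by omega)] at h5
    refine ⟨0, by omega, Or.inl rfl, fun e he => hx e he 0 ?_⟩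
    have k1 := hG.lip x 0
    rw [abs_of_nonneg (by omega)] at k1
    push_cast at k1 ⊢
    omega

/-- The feet of a strand in a box. -/
theorem feet_near (hG : GeoN n N q u) (hq : IsPolygon q) (hD : Encloses q D)
    (hA : A ∈ pcs ω D) (hl : ¬ IsLp D A) {j : ℕ} (hj : j ≤ N) {ρ : ℤ} (hρ : 3 * (ρ + 1) < n)
    (hd : ∀ e ∈ A, nm (hdv e - q (j : ZMod N)) ≤ ρ) :
    (|(lo q A : ℤ) - j| ≤ 2 * (ρ + 1) ∨ (N : ℤ) - |(lo q A : ℤ) - j| ≤ 2 * (ρ + 1)) ∧
      (|(hi q A : ℤ) - j| ≤ 2 * (ρ + 1) ∨ (N : ℤ) - |(hi q A : ℤ) - j| ≤ 2 * (ρ + 1)) := by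
  obtain ⟨h1, h2, h3, h4⟩ := feet hq hD hA hl
  have key : ∀ x : ℕ, x < N → be q (x : ZMod N) ∈ A →
      (|(x : ℤ) - j| ≤ 2 * (ρ + 1) ∨ (N : ℤ) - |(x : ℤ) - j| ≤ 2 * (ρ + 1)) := by
    intro x hx hxA
    refine hG.near hx.le hj hρ ?_
    have e1 := nm_be (q := q) (x : ZMod N)
    rw [nm_comm] at e1
    have k1 := nm_tri' (q (x : ZMod N)) (hdv (be q (x : ZMod N))) (q (j : ZMod N))
    have k2 := hd _ hxA
    omega
  exact ⟨key _ (h1.trans h2) h3, key _ h2 h4⟩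

/-- **The turning of a strand near a site which is not the base.** -/
theorem turn_near (hG : GeoN n N q u) (hq : IsPolygon q) (hD : Encloses q D)
    (hA : A ∈ pcs ω D) (hl : ¬ IsLp D A) {j : ℕ} {ρ : ℤ} (hρ : 4 * (ρ + 1) ≤ n)
    (hj1 : 2 * (ρ + 1) < j) (hj2 : j + 2 * (ρ + 1) < N)
    (hd : ∀ e ∈ A, nm (hdv e - q (j : ZMod N)) ≤ ρ) :
    |u (hi q A) - u (lo q A)| ≤ 1 := by
  obtain ⟨h1, h2, h3, h4⟩ := feet hq hD hA hl
  have hρ0 : 0 ≤ ρ := (H825.Reg.nm_nn _).trans (hd _ h3)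
  obtain ⟨h5, h6⟩ := feet_near hG hq hD hA hl (by omega) (by omega) hd
  refine hG.change_le h1.le ?_
  rcases abs_cases ((lo q A : ℤ) - j) with ⟨a1, a2⟩ | ⟨a1, a2⟩ <;>
    rcases abs_cases ((hi q A : ℤ) - j) with ⟨b1, b2⟩ | ⟨b1, b2⟩ <;>
    rw [a1] at h5 <;> rw [b1] at h6 <;> omega

/-- **The turning of a strand near the base.** -/
theorem turn_base (hG : GeoN n N q u) (hq : IsPolygon q) (hD : Encloses q D)
    (hA : A ∈ pcs ω D) (hl : ¬ IsLp D A) {ρ : ℤ} (hρ : 4 * (ρ + 1) ≤ n)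
    (hd : ∀ e ∈ A, nm (hdv e - q ((0 : ℕ) : ZMod N)) ≤ ρ) :
    ((hi q A : ℤ) ≤ 2 * (ρ + 1)) ∨ ((N : ℤ) - lo q A ≤ 2 * (ρ + 1)) ∨
      ((lo q A : ℤ) ≤ 2 * (ρ + 1) ∧ (N : ℤ) - hi q A ≤ 2 * (ρ + 1)) := by
  obtain ⟨h1, h2, h3, h4⟩ := feet hq hD hA hl
  have hρ0 : 0 ≤ ρ := (H825.Reg.nm_nn _).trans (hd _ h3)
  obtain ⟨h5, h6⟩ := feet_near hG hq hD hA hl (j := 0) (by omega) (by omega) hd
  push_cast at h5 h6
  rw [sub_zero, Nat.abs_cast] at h5 h6
  omega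

end Vale.Agent.P167.H601.LG
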